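import Crest.Agent.R241.Hom.Prod
import Crest.Agent.R241.Trig

/-!
# Block C: Jacobians of radial maps.  Helper prefix `hdet_`.
-/

open MeasureTheory Set Filter Topology
open Crest.GeometryTopology.MetricCurrent
open Crest.GeometryTopology.Submanifold (Euc unitBallVol unitSphereArea)
open scoped ENNReal NNReal InnerProductSpace

noncomputable section

namespace Crest.Agent.R241

universe u

variable {X : Type u} [MetricSpace X] {k : ℕ}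

open Matrix in
theorem hdet_maj {m : ℕ} {E : Set (Euc m)} {φ : Euc m → X} {z : Euc m}
    {G : Matrix (Fin m) (Fin m) ℝ} (hG : G.IsHermitian) {Q : Euc m → ℝ}
    (hQ : ∀ v : Euc m, v.ofLp ⬝ᵥ G *ᵥ v.ofLp = Q v) (h0 : ∀ v, 0 ≤ Q v)
    (h : ∀ ε > 0, ∀ᶠ z' in 𝓝[E] z, dist (φ z') (φ z) ^ 2 ≤ Q (z' - z) + ε * ‖z' - z‖ ^ 2) :
    G.PosSemidef ∧ MajJ E φ z √G.det := by
  have h1 : G.PosSemidef := Matrix.PosSemidef.of_dotProduct_mulVec_nonneg hG fun v => by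
    simpa using (h0 _).trans_eq (hQ (WithLp.toLp 2 v)).symm
  refine ⟨h1, majJ_of_psd h1 fun ε hε => (h ε hε).mono fun z' hz' => hz'.trans_eq ?_⟩
  rw [← hQ]
  simp only [dotProduct, Matrix.mulVec, Finset.mul_sum]
  congr 1
  exact Finset.sum_congr rfl fun a _ => Finset.sum_congr rfl fun b _ => by ring

open Matrix in
theorem hdet_quad (ξ v : Euc k) : v.ofLp ⬝ᵥ vecMulVec ξ.ofLp ξ.ofLp *ᵥ v.ofLp = ⟪ξ, v⟫_ℝ ^ 2 := by
  rw [vecMulVec_mulVec, EuclideanSpace.inner_eq_star_dotProduct]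
  simp [sq, dotProduct_comm]

open Matrix in
theorem hdet_dot (v : Euc k) : v.ofLp ⬝ᵥ v.ofLp = ‖v‖ ^ 2 := by
  rw [← real_inner_self_eq_norm_sq, EuclideanSpace.inner_eq_star_dotProduct]
  simp

theorem hdet_cs {ξ : Euc k} (hξ : ‖ξ‖ ≤ 1) (v : Euc k) : 0 ≤ ‖v‖ ^ 2 - ⟪ξ, v⟫_ℝ ^ 2 := by
  rw [sub_nonneg, ← sq_abs ⟪ξ, v⟫_ℝ]
  exact pow_le_pow_left₀ (abs_nonneg _) ((abs_real_inner_le_norm _ _).trans
    (mul_le_of_le_one_left (norm_nonneg _) hξ)) 2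

open Matrix in
theorem hdet_one_sub (ξ : Euc k) : (1 - vecMulVec ξ.ofLp ξ.ofLp).det = 1 - ‖ξ‖ ^ 2 := by
  rw [vecMulVec_eq Unit, det_one_sub_mul_comm, det_unique, ← hdet_dot]
  simp

/-- `majJ_of_psd` with `G = Lᵀ D L`, `L` = identity with first row `u`,
`D = diag (1, l² (1 - ξ ξᵀ))` -/
theorem majJ_sweep {E : Set (Euc (k + 1))} {φ : Euc (k + 1) → X} {z : Euc (k + 1)}
    (u : Euc (k + 1)) {ξ : Euc k} (hξ : ‖ξ‖ ≤ 1) {l : ℝ} (hl : 0 ≤ l)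
    (h : ∀ ε > 0, ∀ᶠ z' in 𝓝[E] z, dist (φ z') (φ z) ^ 2 ≤ ⟪u, z' - z⟫_ℝ ^ 2
      + l ^ 2 * (‖tl k (z' - z)‖ ^ 2 - ⟪ξ, tl k (z' - z)⟫_ℝ ^ 2) + ε * ‖z' - z‖ ^ 2) :
    MajJ E φ z (|u 0| * l ^ k * √(1 - ‖ξ‖ ^ 2)) := by
  open Matrix in
  set Q : Matrix (Fin k) (Fin k) ℝ := l ^ 2 • (1 - vecMulVec ξ.ofLp ξ.ofLp) with hQ
  set L : Matrix (Fin (k + 1)) (Fin (k + 1)) ℝ :=
    Matrix.of (Fin.cons u.ofLp fun a => Fin.cons 0 ((1 : Matrix (Fin k) (Fin k) ℝ) a)) with hL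
  set D : Matrix (Fin (k + 1)) (Fin (k + 1)) ℝ :=
    Matrix.of (Fin.cons (Fin.cons 1 0) fun a => Fin.cons 0 (Q a)) with hD
  have h1 : L.det = u 0 := by
    have : L.submatrix Fin.succ Fin.succ = 1 := by ext; simp [hL]
    rw [Matrix.det_succ_column_zero, Fin.sum_univ_succ, Fin.succAbove_zero, this]
    simp [hL]
  have h2 : D.det = (l ^ k) ^ 2 * (1 - ‖ξ‖ ^ 2) := by
    have : D.submatrix Fin.succ Fin.succ = Q := by ext; simp [hD]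
    rw [← hdet_one_sub, ← pow_mul, mul_comm k, pow_mul, Matrix.det_succ_column_zero,
      Fin.sum_univ_succ, Fin.succAbove_zero, this]
    simp [hD, hQ]
  have h3 : D.IsHermitian := by
    ext a b
    cases a using Fin.cases <;> cases b using Fin.cases <;>
      simp [hD, hQ, Matrix.vecMulVec_apply, Matrix.one_apply, eq_comm, mul_comm]
  have h4 := (hdet_maj (isHermitian_conjTranspose_mul_mul L h3) (fun v => ?_)
    (fun v => add_nonneg (sq_nonneg _) (mul_nonneg (sq_nonneg l) (hdet_cs hξ _))) h).2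
  · rw [Matrix.det_mul, Matrix.det_mul, Matrix.det_conjTranspose, h1, h2, star_trivial,
      mul_right_comm, ← sq, Real.sqrt_mul (sq_nonneg _), Real.sqrt_mul (sq_nonneg _),
      Real.sqrt_sq_eq_abs, Real.sqrt_sq (pow_nonneg hl k), ← mul_assoc] at h4
    exact h4
  · have h5 : L *ᵥ v.ofLp = Fin.cons ⟪u, v⟫_ℝ (tl k v).ofLp := by
      ext a
      cases a using Fin.cases
      · simp [hL, Matrix.mulVec, EuclideanSpace.inner_eq_star_dotProduct, dotProduct_comm]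
      · simp [hL, Matrix.mulVec, dotProduct, Fin.sum_univ_succ, Matrix.one_apply]
    have h6 : (tl k v).ofLp ⬝ᵥ Q *ᵥ (tl k v).ofLp
        = l ^ 2 * (‖tl k v‖ ^ 2 - ⟪ξ, tl k v⟫_ℝ ^ 2) := by
      rw [hQ, Matrix.smul_mulVec, Matrix.sub_mulVec, Matrix.one_mulVec, dotProduct_smul,
        dotProduct_sub, hdet_quad, hdet_dot, smul_eq_mul]
    rw [← Matrix.mulVec_mulVec, ← Matrix.mulVec_mulVec, Matrix.dotProduct_mulVec,
      Matrix.conjTranspose_eq_transpose_of_trivial, Matrix.vecMul_transpose, h5, ← h6]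
    simp [hD, Matrix.mulVec, dotProduct, Fin.sum_univ_succ, sq]

/-- `majJ_of_psd` with `G = β βᵀ + l² (1 - ξ ξᵀ)`, `det G = ∏ λ ≤ exp (∑ (λ - 1))` -/
theorem majJ_end {E : Set (Euc k)} {φ : Euc k → X} {z : Euc k} (β : Euc k) {ξ : Euc k}
    (hξ : ‖ξ‖ ≤ 1) (l : ℝ)
    (h : ∀ ε > 0, ∀ᶠ z' in 𝓝[E] z, dist (φ z') (φ z) ^ 2 ≤ ⟪β, z' - z⟫_ℝ ^ 2
      + l ^ 2 * (‖z' - z‖ ^ 2 - ⟪ξ, z' - z⟫_ℝ ^ 2) + ε * ‖z' - z‖ ^ 2) :
    MajJ E φ z (Real.exp ((‖β‖ ^ 2 + l ^ 2 * (k - ‖ξ‖ ^ 2) - k) / 2)) := by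
  open Matrix in
  set G : Matrix (Fin k) (Fin k) ℝ :=
    vecMulVec β.ofLp β.ofLp + l ^ 2 • (1 - vecMulVec ξ.ofLp ξ.ofLp) with hG
  have h1 : G.IsHermitian := by
    ext a b
    simp [hG, Matrix.vecMulVec_apply, Matrix.one_apply, eq_comm, mul_comm]
  obtain ⟨h2, h3⟩ := hdet_maj h1
    (Q := fun v => ⟪β, v⟫_ℝ ^ 2 + l ^ 2 * (‖v‖ ^ 2 - ⟪ξ, v⟫_ℝ ^ 2)) (fun v => by
      rw [hG, Matrix.add_mulVec, Matrix.smul_mulVec, Matrix.sub_mulVec, Matrix.one_mulVec,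
        dotProduct_add, dotProduct_smul, dotProduct_sub, hdet_quad, hdet_quad, hdet_dot,
        smul_eq_mul])
    (fun v => add_nonneg (sq_nonneg _) (mul_nonneg (sq_nonneg l) (hdet_cs hξ _))) h
  refine h3.mono ?_
  have h4 : G.trace = ‖β‖ ^ 2 + l ^ 2 * (k - ‖ξ‖ ^ 2) := by
    simp [hG, Matrix.trace_vecMulVec, hdet_dot]
  rw [Real.exp_half, ← h4, h1.det_eq_prod_eigenvalues, h1.trace_eq_sum_eigenvalues]
  refine Real.sqrt_le_sqrt ?_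
  simp only [RCLike.ofReal_real_eq_id, id]
  calc ∏ i, h1.eigenvalues i ≤ ∏ i, Real.exp (h1.eigenvalues i - 1) :=
        Finset.prod_le_prod (fun i _ => h2.eigenvalues_nonneg i) fun i _ => by
          linarith [Real.add_one_le_exp (h1.eigenvalues i - 1)]
    _ = _ := by rw [← Real.exp_sum]; simp

/-- With `cs = 1 + σ md r`, `δ = t f sn r`: `0 ≤ sn (r - δ) / sn r ≤ 1 - t f cs + σ md δ` (`sn_sub`,
`le_sn`; also for `r = 0`), `‖ξ‖² ≤ k`, `exp y ≤ 1 + y + y²` for `|y| ≤ 1`. -/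
theorem end_est {σ : ℝ} (hσ : 0 ≤ σ) (M : ℝ) (k : ℕ) : ∃ C t₀ : ℝ, 0 < t₀ ∧ ∀ t ∈ Ioo 0 t₀,
    ∀ f ∈ Icc 0 M, ∀ r ∈ Icc 0 M, t * f * sn σ r ≤ r ∧ ∀ ξ F : Euc k, ‖ξ‖ ≤ 1 → ‖F‖ ≤ M →
      Real.exp ((‖(1 - t * f * (1 + σ * md σ r)) • ξ - (t * sn σ r) • F‖ ^ 2
          + (sn σ (r - t * f * sn σ r) / sn σ r) ^ 2 * (k - ‖ξ‖ ^ 2) - k) / 2)
        ≤ 1 - t * (k * (1 + σ * md σ r) * f + ⟪F, sn σ r • ξ⟫_ℝ) + C * t ^ 2 := by
  -- `B` bounds `1, f, ‖F‖, cs r, sn r, σ, cs δ, k`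
  obtain ⟨B, hB1, hBM, hBc, hBs, hBσ, hBk⟩ : ∃ B : ℝ, 1 ≤ B ∧ M ≤ B ∧ 1 + σ * md σ |M| ≤ B ∧
      sn σ M ≤ B ∧ σ ≤ B ∧ k ≤ B := by
    have h1 := mul_nonneg hσ (md_nonneg hσ |M|)
    refine ⟨|M| + (1 + σ * md σ |M|) + |sn σ M| + σ + k, ?_, ?_, ?_, ?_, ?_, ?_⟩ <;>
      linarith [le_abs_self M, abs_nonneg M, le_abs_self (sn σ M), abs_nonneg (sn σ M),
        Nat.cast_nonneg (α := ℝ) k]
  have hB0 : 0 < B := by linarith
  refine ⟨4 * B ^ 13 + (6 * B ^ 13) ^ 2, 1 / (6 * B ^ 13), by positivity,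
    fun t ht f hf r hr => ?_⟩
  obtain ⟨ht0, ht1⟩ := ht
  rw [lt_div_iff₀ (by positivity)] at ht1
  have hp : ∀ n ≤ 13, B ^ n ≤ B ^ 13 := fun n hn => pow_le_pow_right₀ hB1 hn
  have hp1 : 1 ≤ B ^ 13 := one_le_pow₀ hB1
  have ht2 : t ≤ 1 := by nlinarith
  have hcs : ∀ a, 0 ≤ a → a ≤ r → 1 ≤ 1 + σ * md σ a ∧ 1 + σ * md σ a ≤ B := fun a h0 h1 =>
    ⟨le_add_of_nonneg_right (mul_nonneg hσ (md_nonneg hσ _)), le_trans (add_le_add_right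
      (mul_le_mul_of_nonneg_left (md_le_md hσ ((abs_of_nonneg h0).trans_le
        (h1.trans (hr.2.trans (le_abs_self M))))) hσ) 1) hBc⟩
  obtain ⟨c1, c2⟩ := hcs r hr.1 le_rfl
  have s1 := sn_nonneg hσ hr.1
  have s2 : sn σ r ≤ B := ((strictMono_sn hσ).monotone hr.2).trans hBs
  have f1 := hf.1
  have f2 : f ≤ B := hf.2.trans hBM
  set c := 1 + σ * md σ r with hc
  have fc : f * c ≤ B ^ 2 := by rw [sq]; gcongr
  have tfc : t * (f * c) ≤ 1 := by nlinarith [hp 2 (by norm_num)]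
  have tfc0 : 0 ≤ t * (f * c) := by positivity
  have hδ : t * f * sn σ r ≤ r := by
    calc t * f * sn σ r ≤ t * f * (r * c) := by gcongr; exact sn_le hσ hr.1
      _ = t * (f * c) * r := by ring
      _ ≤ r := mul_le_of_le_one_left hr.1 tfc
  refine ⟨hδ, fun ξ F hξ hF => ?_⟩
  have hδ0 : 0 ≤ t * f * sn σ r := by positivity
  set δ := t * f * sn σ r with hδ'
  set l := sn σ (r - δ) / sn σ r with hl
  have l0 : 0 ≤ l := div_nonneg (sn_nonneg hσ (by linarith)) s1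
  have m0 := mul_nonneg hσ (md_nonneg hσ δ)
  have m1 : σ * md σ δ ≤ B ^ 6 * t ^ 2 := by
    calc σ * md σ δ ≤ B * (δ ^ 2 / 2 * B) := mul_le_mul hBσ ((md_le hσ δ).trans
          (mul_le_mul_of_nonneg_left (hcs δ hδ0 hδ).2 (by positivity))) (md_nonneg hσ δ) hB0.le
      _ ≤ B * ((t * B * B) ^ 2 / 1 * B) := by
          gcongr
          · rw [hδ']; gcongr
          · norm_num
      _ = _ := by ring
  have l1 : l ≤ 1 - t * (f * c) + B ^ 6 * t ^ 2 := by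
    refine div_le_of_le_mul₀ s1 (by nlinarith) ?_
    rw [sn_sub hσ, ← hc]
    have h1 := mul_le_mul_of_nonneg_left (le_sn hσ hδ0) (zero_le_one.trans c1)
    have h2 := mul_le_mul_of_nonneg_left m1 s1
    have h3 : c * δ = t * (f * c) * sn σ r := by rw [hδ']; ring
    nlinarith
  have l2 : l ^ 2 ≤ (1 - t * (f * c)) ^ 2 + 3 * B ^ 12 * t ^ 2 := by
    have h1 : B ^ 6 * t ^ 2 ≤ B ^ 12 * t ^ 2 := by gcongr <;> norm_num
    have h2 : (B ^ 6 * t ^ 2) ^ 2 ≤ B ^ 12 * t ^ 2 := by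
      calc (B ^ 6 * t ^ 2) ^ 2 = B ^ 12 * t ^ 2 * t ^ 2 := by ring
        _ ≤ _ := mul_le_of_le_one_right (by positivity) (pow_le_one₀ ht0.le ht2)
    have h3 : 0 ≤ B ^ 6 * t ^ 2 := by positivity
    refine (pow_le_pow_left₀ l0 l1 2).trans ?_
    nlinarith
  have x1 : ‖ξ‖ ^ 2 ≤ k := by
    rcases k with _ | k
    · simp [Subsingleton.elim ξ 0]
    · exact (pow_le_one₀ (norm_nonneg _) hξ).trans (by exact_mod_cast Nat.succ_pos k)
  have x2 : |⟪ξ, F⟫_ℝ| ≤ B := (abs_real_inner_le_norm _ _).trans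
    ((mul_le_of_le_one_left (norm_nonneg _) hξ).trans (hF.trans hBM))
  have x3 : ‖F‖ ^ 2 ≤ B ^ 2 := pow_le_pow_left₀ (norm_nonneg _) (hF.trans hBM) 2
  have k0 : (0 : ℝ) ≤ k := Nat.cast_nonneg k
  rw [norm_sub_sq_real, norm_smul, norm_smul, mul_pow, mul_pow, Real.norm_eq_abs, Real.norm_eq_abs,
    sq_abs, sq_abs, inner_smul_left, inner_smul_right, inner_smul_right, real_inner_comm ξ F,
    mul_assoc t f c]
  simp only [conj_trivial]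
  generalize ⟪ξ, F⟫_ℝ = q at x2 ⊢
  generalize ‖F‖ ^ 2 = n at x3 ⊢
  have y1 : ((1 - t * (f * c)) ^ 2 * ‖ξ‖ ^ 2 - 2 * ((1 - t * (f * c)) * (t * sn σ r * q))
      + (t * sn σ r) ^ 2 * n + l ^ 2 * (k - ‖ξ‖ ^ 2) - k) / 2
      ≤ -(t * (k * c * f + sn σ r * q)) + 4 * B ^ 13 * t ^ 2 := by
    have h1 := mul_le_mul_of_nonneg_right l2 (sub_nonneg.2 x1)
    have h2 : 3 * B ^ 12 * t ^ 2 * (k - ‖ξ‖ ^ 2) ≤ 3 * B ^ 13 * t ^ 2 := by
      calc 3 * B ^ 12 * t ^ 2 * (k - ‖ξ‖ ^ 2) ≤ 3 * B ^ 12 * t ^ 2 * B := by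
            gcongr; linarith [sq_nonneg ‖ξ‖]
        _ = _ := by ring
    have h3 : (f * c) ^ 2 * k ≤ B ^ 13 := by
      calc (f * c) ^ 2 * k ≤ (B ^ 2) ^ 2 * B := by gcongr
        _ = B ^ 5 := by ring
        _ ≤ _ := hp 5 (by norm_num)
    have h4 : f * c * sn σ r * q ≤ B ^ 13 := by
      calc f * c * sn σ r * q ≤ f * c * sn σ r * |q| := by gcongr; exact le_abs_self q
        _ ≤ B ^ 2 * B * B := by gcongr
        _ = B ^ 4 := by ring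
        _ ≤ _ := hp 4 (by norm_num)
    have h5 : sn σ r ^ 2 * n ≤ B ^ 13 := by
      calc sn σ r ^ 2 * n ≤ sn σ r ^ 2 * B ^ 2 := by gcongr
        _ ≤ B ^ 2 * B ^ 2 := by gcongr
        _ = B ^ 4 := by ring
        _ ≤ _ := hp 4 (by norm_num)
    have h6 := mul_le_mul_of_nonneg_left h3 (sq_nonneg t)
    have h7 := mul_le_mul_of_nonneg_left h4 (sq_nonneg t)
    have h8 := mul_le_mul_of_nonneg_left h5 (sq_nonneg t)
    have h9 : 0 ≤ B ^ 13 * t ^ 2 := by positivity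
    nlinarith
  have y2 : |-(t * (k * c * f + sn σ r * q)) + 4 * B ^ 13 * t ^ 2| ≤ 6 * B ^ 13 * t := by
    have h1 : |k * c * f + sn σ r * q| ≤ 2 * B ^ 13 := by
      calc |k * c * f + sn σ r * q| ≤ k * c * f + sn σ r * |q| := by
            refine (abs_add_le _ _).trans_eq ?_
            rw [abs_of_nonneg (by positivity), abs_mul, abs_of_nonneg s1]
        _ ≤ B * B * B + B * B := by gcongr
        _ = B ^ 3 + B ^ 2 := by ring
        _ ≤ _ := by linarith [hp 3 (by norm_num), hp 2 (by norm_num)]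
    refine (abs_add_le _ _).trans ?_
    rw [abs_neg, abs_mul, abs_of_pos ht0, abs_of_nonneg (by positivity : 0 ≤ 4 * B ^ 13 * t ^ 2)]
    have h2 := mul_le_mul_of_nonneg_left h1 ht0.le
    have h3 : B ^ 13 * t * t ≤ B ^ 13 * t := mul_le_of_le_one_right (by positivity) ht2
    nlinarith
  refine (Real.exp_le_exp.2 y1).trans ?_
  have y3 := (le_abs_self _).trans (Real.abs_exp_sub_one_sub_id_le (y2.trans (by linarith)))
  have y4 := pow_le_pow_left₀ (abs_nonneg _) y2 2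
  rw [sq_abs] at y4
  linarith

end Crest.Agent.R241
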