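import Crest.Agent.R241.NL

/-!
# Block C: push-forward under a Lipschitz map.  Helper prefix `hpush_`.
-/

open MeasureTheory Set Filter Topology
open Crest.GeometryTopology.MetricCurrent
open Crest.GeometryTopology.Submanifold (Euc unitBallVol unitSphereArea)
open scoped ENNReal NNReal InnerProductSpace

noncomputable section

namespace Crest.Agent.R241

universe u

variable {X Y : Type u} [MetricSpace X] [MetricSpace Y] {k : ℕ}

theorem MajJ.nonneg {E : Set (Euc k)} {φ : Euc k → X} {z : Euc k} {J : ℝ} (h : MajJ E φ z J) :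
    0 ≤ J := by
  refine le_of_forall_pos_le_add fun δ hδ => ?_
  obtain ⟨B, h1, -⟩ := h δ hδ
  exact (abs_nonneg _).trans h1

/-- `exists_ch_of_majJ` for every chart (`θ = ± 1` constant, `J` replaced by `max J 0`,
`η_i = η / 2 / 2 ^ i`), then `exists_sum` -/
theorem exists_push_majJ [Nonempty X] (c : Ch Y k) {h : Y → X} {K : ℝ≥0} (hh : LipschitzWith K h)
    {J : ℕ × Euc k → ℝ} (hJ : Integrable J c.par)
    (hmaj : ∀ᵐ w ∂c.par, MajJ (c.E w.1) (fun z => h (c.φ w.1 z)) w.2 (J w)) {η : ℝ} (hη : 0 < η) :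
    ∃ S : Ch X k, (∀ f π, IsTestPair f π →
        S.act f π = c.act (fun y => f (h y)) fun a y => π a (h y)) ∧
      S.area ≤ (∫ w, J w ∂c.par) + η := by
  have hJ' : Integrable (fun w => max (J w) 0) c.par := hJ.pos_part
  have e : ∫ w, max (J w) 0 ∂c.par = ∫ w, J w ∂c.par :=
    integral_congr_ae (hmaj.mono fun w hw => max_eq_left hw.nonneg)
  have hi : ∀ i, IntegrableOn (fun z => max (J (i, z)) 0) (c.E i) := fun i =>
    (measurableEmbedding_prodMk_left i).integrable_map_iff.1 (hJ'.mono_measure (Measure.le_sum _ i))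
  obtain ⟨θ, hθ, hθ1⟩ : ∃ θ : ℕ → ℤ, (∀ i, (θ i : ℝ) = c.sg i) ∧ ∀ i, |(θ i : ℝ)| = 1 := by
    have : ∀ i, ∃ n : ℤ, (n : ℝ) = c.sg i := fun i =>
      (c.hsg i).elim (fun h => ⟨1, by simp [h]⟩) fun h => ⟨-1, by simp [h]⟩
    choose θ hθ using this
    exact ⟨θ, hθ, fun i => by rw [hθ, c.abs_sg]⟩
  choose S h1 h2 _ using fun i => exists_ch_of_majJ (c.meas i) (hh.comp_lipschitzOnWith (c.lip i))
    (θ := fun _ => θ i) measurable_const
    (integrableOn_const (ne_top_of_le_ne_top c.fin (ENNReal.le_tsum i))) (hi i).aemeasurable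
    (fun _ => le_max_right _ _) ((hi i).const_mul _)
    ((c.ae_par_iff.1 hmaj i).mono fun _ hz _ => hz.mono (le_max_left _ _))
    (η := η / 2 / 2 ^ i) (by positivity)
  simp only [hθ1, one_mul] at h2
  have h3 := (c.hasSum_integral_par hJ').add (hasSum_geometric_two' η)
  have h4 : Summable fun i => (S i).area := h3.summable.of_nonneg_of_le (fun i => (S i).area_nonneg) h2
  obtain ⟨T, h5, h6, -⟩ := exists_sum S h4
  refine ⟨T, fun f π hf => (h6 f π hf).unique ?_, ?_⟩
  · refine (c.hasSum_act (isTestPair_comp hf hh)).congr_fun fun i => ?_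
    rw [h1 i f π hf, ← integral_const_mul]
    simp only [hθ, mul_assoc]
    rfl
  · rw [h5, ← e]
    exact hasSum_le h2 h4.hasSum h3

end Crest.Agent.R241
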