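import Crest.Agent.R241.Hom.Form
import Crest.Agent.R241.Hom.Push
import Crest.Agent.R241.Hom.Hinge
import Crest.Agent.R241.Hom.Det

/-!
# Block C: swept chains and end chains.  Helper prefix `hsw_`.
-/

open MeasureTheory Set Filter Topology
open Crest.GeometryTopology.MetricCurrent
open Crest.GeometryTopology.Submanifold (Euc unitBallVol unitSphereArea)
open scoped ENNReal NNReal InnerProductSpace

noncomputable section

namespace Crest.Agent.R241

universe u

variable {X : Type u} [MetricSpace X] [CompactSpace X] {k : ℕ} {σ : ℝ} {x : X} {g : X → ℝ → X}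

theorem exists_sweep (hσ : 0 ≤ σ) (hg : ∀ y, IsPG σ (g y) x y) (c : Ch X k) {u v : X → ℝ}
    (hu : Lip u) (hv : Lip v) (huv : ∀ s ∈ Icc (0 : ℝ) 1, ∀ y, u y + s * v y ∈ Icc 0 (dist x y))
    {α : ℝ → ℝ} (hα : Continuous α) {ρ : ℕ × Euc k → ℝ} (hρ : Integrable ρ c.par)
    (hle : ∀ᵐ w ∂c.par, ∀ s ∈ Icc (0 : ℝ) 1, |v (c.pt w)|
      * (sn σ (u (c.pt w) + s * v (c.pt w)) / sn σ (dist x (c.pt w))) ^ k
      * √(1 - ‖c.grad (fun y => dist x y) w‖ ^ 2) ≤ α s * ρ w) {η : ℝ} (hη : 0 < η) :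
    ∃ R : Ch X (k + 1), (∀ f π, IsTestPair f π → R.act f π = c.prod.act
        (fun p => f (g p.2 (u p.2 + p.1 * v p.2))) fun a p => π a (g p.2 (u p.2 + p.1 * v p.2))) ∧
      R.area ≤ (∫ s in (0 : ℝ)..1, α s) * (∫ w, ρ w ∂c.par) + η := by
  have : Nonempty X := ⟨x⟩
  have hid : Lip fun s : ℝ => s := ⟨1, LipschitzWith.id⟩
  have h1 := lip_prod (Lip.const 1) hu
  have h2 := lip_prod hid hv
  have h3 := lip_prod (Lip.const 1) (Lip.dist_right x)
  have g1 := c.grad_prod (Lip.const 1) hu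
  have g3 := c.grad_prod (Lip.const 1) (Lip.dist_right x)
  simp only [one_mul] at h1 h3 g1 g3
  obtain ⟨K, hK⟩ := lipschitz_radial hσ hg (Y := unitInterval × X) LipschitzWith.prod_snd
    (h1.add h2) fun p => huv _ p.1.2 _
  rw [← c.integral_prod hα.integrableOn_Icc hρ]
  refine exists_push_majJ c.prod hK (c.integrable_prod hα.integrableOn_Icc hρ) ?_ hη
  filter_upwards [c.prod.ae_mem, c.prod_ae_pt, c.prod.ae_hasGradient (h1.add h2),
    c.prod.ae_hasGradient h3, c.prod.grad_add h1 h2, g1, c.grad_prod hid hv, g3, c.prod_ae_bs hle,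
    c.prod_ae_bs (c.ae_norm_grad_le (u := fun y => dist x y) (LipschitzWith.dist_right x))]
    with w hw hs a1 a2 a3 a4 a5 a6 a7 a8
  have hm := huv _ hw.1 (c.pt (bs w))
  have b1 := hinge_local hσ hg (E := c.prod.E w.1) (ψ := fun z => (c.prod.φ w.1 z).2)
    (fun z _ => huv _ (c.prod.φ w.1 z).1.2 _) (P := tl k) hw (fun z' hz' => by
      have := (c.lip w.1).dist_le_mul _ hz'.2 _ hw.2
      rwa [NNReal.coe_one, one_mul, dist_eq_norm, ← map_sub] at this)
    a1.hasFDerivWithinAt a2.hasFDerivWithinAt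
  have b2 : ∀ v : Euc (k + 1), ⟪c.prod.grad (fun p => dist x p.2) w, v⟫_ℝ
      = ⟪c.grad (fun y => dist x y) (bs w), tl k v⟫_ℝ := fun v => by
    have e := a6.2
    rw [one_smul] at e
    simp [PiLp.inner_apply, Fin.sum_univ_succ, a6.1, ← e]
  simp only [InnerProductSpace.toDual_apply_apply, b2] at b1
  refine (majJ_sweep _ a8 (div_nonneg (sn_nonneg hσ (huv _ (c.prod.φ w.1 w.2).1.2 _).1)
    (sn_nonneg hσ dist_nonneg)) b1).mono (le_of_eq_of_le ?_ (a7 _ hw.1))
  rw [a3, PiLp.add_apply, a4.1, a5.1, ← hs]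
  simp only [deriv_const', zero_mul, deriv_id'', one_mul, zero_add]
  rfl

theorem exists_end (hσ : 0 ≤ σ) (hg : ∀ y, IsPG σ (g y) x y) (c : Ch X k) {a : X → ℝ} (ha : Lip a)
    (ha0 : ∀ y, a y ∈ Icc 0 (dist x y)) {J : ℕ × Euc k → ℝ} (hJ : Integrable J c.par)
    (hle : ∀ᵐ w ∂c.par, Real.exp ((‖c.grad a w‖ ^ 2
      + (sn σ (a (c.pt w)) / sn σ (dist x (c.pt w))) ^ 2
        * (k - ‖c.grad (fun y => dist x y) w‖ ^ 2) - k) / 2) ≤ J w) {η : ℝ} (hη : 0 < η) :
    ∃ c' : Ch X k, (∀ f π, IsTestPair f π →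
        c'.act f π = c.act (fun y => f (g y (a y))) fun b y => π b (g y (a y))) ∧
      c'.area ≤ (∫ w, J w ∂c.par) + η := by
  have : Nonempty X := ⟨x⟩
  obtain ⟨K, hK⟩ := lipschitz_radial hσ hg LipschitzWith.id ha ha0
  refine exists_push_majJ c hK hJ ?_ hη
  filter_upwards [c.ae_mem, c.ae_hasGradient ha, c.ae_hasGradient (Lip.dist_right x), hle,
    c.ae_norm_grad_le (u := fun y => dist x y) (LipschitzWith.dist_right x)] with w hw a1 a2 a3 a4
  have b1 := hinge_local hσ hg (E := c.E w.1) (ψ := c.φ w.1) (fun z _ => ha0 _)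
    (P := ContinuousLinearMap.id ℝ _) hw (fun z' hz' => by
      have := (c.lip w.1).dist_le_mul _ hz' _ hw
      rwa [NNReal.coe_one, one_mul, dist_eq_norm] at this)
    a1.hasFDerivWithinAt a2.hasFDerivWithinAt
  simp only [InnerProductSpace.toDual_apply_apply, ContinuousLinearMap.id_apply] at b1
  exact (majJ_end _ a4 _ b1).mono a3

end Crest.Agent.R241
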