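import Crest.Agent.R241.Sum

/-!
# Block C: the action as a function of `k + 1` slots.  Helper prefix `halt_`.
-/

open MeasureTheory Set Filter Topology
open Crest.GeometryTopology.MetricCurrent
open Crest.GeometryTopology.Submanifold (Euc unitBallVol unitSphereArea)
open scoped ENNReal NNReal InnerProductSpace

noncomputable section

namespace Crest.Agent.R241

universe u

variable {X : Type u} [MetricSpace X] [CompactSpace X] {k : ℕ}

namespace Ch

variable (c : Ch X k)

/-- `c (F₀; F₁, …, F_k)` -/
def actC (F : Fin (k + 1) → X → ℝ) : ℝ := c.act (F 0) (Fin.tail F)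

theorem actC_update_add {F : Fin (k + 1) → X → ℝ} (hF : ∀ b, Lip (F b)) (a : Fin (k + 1))
    {g g' : X → ℝ} (hg : Lip g) (hg' : Lip g') :
    c.actC (Function.update F a fun y => g y + g' y)
      = c.actC (Function.update F a g) + c.actC (Function.update F a g') := by
  refine Fin.cases ?_ (fun i => ?_) a
  · simp only [actC, Fin.tail_update_zero, Function.update_self]
    exact c.act_add_left (isTestPair_iff.2 ⟨hg, fun b => hF _⟩) (isTestPair_iff.2 ⟨hg', fun b => hF _⟩)
  · simp only [actC, Fin.tail_update_succ, Function.update_of_ne (Fin.succ_ne_zero i).symm]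
    exact c.act_update_add (isTestPair_iff.2 ⟨hF 0, fun b => hF _⟩) i hg hg'

/-- the first functions are uniformly bounded (compactness, one point) -/
theorem tendsto_actC {F : ℕ → Fin (k + 1) → X → ℝ} {G : Fin (k + 1) → X → ℝ} {L : ℝ≥0}
    (hL : ∀ N a, LipschitzWith L (F N a)) (h : ∀ a y, Tendsto (fun N => F N a y) atTop (𝓝 (G a y))) :
    Tendsto (fun N => c.actC (F N)) atTop (𝓝 (c.actC G)) := by
  have hb : ∃ C : ℝ, ∀ N y, |F N 0 y| ≤ C := by
    rcases isEmpty_or_nonempty X with hX | ⟨⟨x₀⟩⟩
    · exact ⟨0, fun N y => (hX.false y).elim⟩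
    obtain ⟨C₀, hC₀⟩ := ((h 0 x₀).abs.bddAbove_range)
    obtain ⟨D, hD⟩ := (isCompact_univ (X := X)).isBounded.subset_closedBall x₀
    refine ⟨C₀ + L * D, fun N y => ?_⟩
    have h1 : |F N 0 x₀| ≤ C₀ := hC₀ ⟨N, rfl⟩
    have h2 : dist (F N 0 y) (F N 0 x₀) ≤ L * dist y x₀ := (hL N 0).dist_le_mul y x₀
    have h3 : dist y x₀ ≤ D := hD (mem_univ y)
    have h4 : (L : ℝ) * dist y x₀ ≤ L * D := mul_le_mul_of_nonneg_left h3 L.coe_nonneg
    rw [Real.dist_eq] at h2
    have h5 := abs_sub_abs_le_abs_sub (F N 0 y) (F N 0 x₀)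
    linarith
  obtain ⟨C, hC⟩ := hb
  exact c.tendsto_act (f := fun N => F N 0) (π := fun N => Fin.tail (F N)) (P := Fin.tail G)
    (fun N => (hL N 0).continuous) hC (h 0) (L := L) (fun N b => hL N b.succ)
    (fun b y => h b.succ y)

theorem actC_const_mul {F : Fin (k + 1) → X → ℝ} (hF : ∀ b, Lip (F b)) (t : Fin (k + 1) → ℝ) :
    c.actC (fun a y => t a * F a y) = (∏ a, t a) * c.actC F := by
  rw [Fin.prod_univ_succ, actC, actC, act_const_mul_left, mul_assoc]
  congr 1
  have hj : ∀ᵐ w ∂c.par, c.jac (Fin.tail fun a y => t a * F a y) w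
      = (∏ b : Fin k, t b.succ) * c.jac (Fin.tail F) w := by
    have h1 : ∀ᵐ w ∂c.par, ∀ b : Fin k,
        c.grad (fun y => t b.succ * F b.succ y) w = t b.succ • c.grad (F b.succ) w :=
      ae_all_iff.2 fun b => c.grad_const_mul _ (hF _)
    filter_upwards [h1] with w hw
    rw [jac_eq, jac_eq, ← Matrix.det_mul_column]
    congr 1
    ext b j
    simp only [Matrix.of_apply, Fin.tail]
    rw [hw b]
    simp
  rw [act, act, ← integral_const_mul]
  refine integral_congr_ae ?_
  filter_upwards [hj] with w hw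
  rw [hw]
  ring

/-- for a cycle the action is alternating in all slots (`act_update_mul`, `act_perm`; swaps generate,
then use `Fin.cycleRange`) -/
theorem IsCyc.act_succAbove {c : Ch X k} (hc : c.IsCyc) {F : Fin (k + 1) → X → ℝ}
    (hF : ∀ b, Lip (F b)) (a : Fin (k + 1)) :
    c.act (F a) (fun b => F (a.succAbove b)) = (-1) ^ (a : ℕ) * c.actC F := by
  refine Fin.cases ?_ (fun i => ?_) a
  · simp only [Fin.succAbove_zero, Fin.val_zero, pow_zero, one_mul, actC]
    rfl
  · have hT : ∀ b, Lip (Fin.tail F b) := fun b => hF _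
    have h1 := c.act_perm (F i.succ) (fun b => F (i.succ.succAbove b)) (Fin.cycleRange i)
    have h2 : (fun b => F (i.succ.succAbove (Fin.cycleRange i b)))
        = Function.update (Fin.tail F) i (F 0) := by
      funext b
      rw [Fin.succAbove_cycleRange]
      by_cases hb : b = i
      · subst hb
        rw [Equiv.swap_apply_right, Function.update_self]
      · rw [Function.update_of_ne hb, Equiv.swap_apply_of_ne_of_ne (Fin.succ_ne_zero b)
          (fun h => hb (Fin.succ_injective _ h))]
        rfl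
    rw [h2, Fin.sign_cycleRange] at h1
    have h3 := c.act_update_mul (f := fun _ => 1) (π := Fin.tail F)
      (isTestPair_iff.2 ⟨Lip.const 1, hT⟩) i (hF 0) (hF i.succ)
    have h4 : c.act (fun _ => 1) (Function.update (Fin.tail F) i fun y => F 0 y * F i.succ y) = 0 := by
      refine hc _ fun b => ?_
      by_cases hb : b = i
      · subst hb
        rw [Function.update_self]
        exact (hF 0).mul (hF _)
      · rw [Function.update_of_ne hb]
        exact hT b
    have h5 : Function.update (Fin.tail F) i (F i.succ) = Fin.tail F :=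
      Function.update_eq_self i (Fin.tail F)
    rw [h4, h5] at h3
    simp only [one_mul] at h3
    have h6 : c.act (F i.succ) (Function.update (Fin.tail F) i (F 0)) = -c.actC F := by
      rw [actC]
      exact (eq_neg_of_add_eq_zero_right h3.symm)
    rw [h6] at h1
    push_cast at h1
    have h7 : ((-1 : ℝ) ^ (i : ℕ)) * (-1) ^ (i : ℕ) = 1 := by
      rw [← mul_pow]; simp
    rw [Fin.val_succ, pow_succ]
    linear_combination (-(-1 : ℝ) ^ (i : ℕ)) * h1
      - c.act (F i.succ) (fun b => F (i.succ.succAbove b)) * h7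

end Ch

end Crest.Agent.R241
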