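import Crest.Agent.R241.Hom.Prod
import Crest.Agent.R241.Hom.Approx
import Crest.Agent.R241.Hom.Alt

/-!
# Block C: the homotopy formula.  Helper prefix `hform_`.
-/

open MeasureTheory Set Filter Topology
open Crest.GeometryTopology.MetricCurrent
open Crest.GeometryTopology.Submanifold (Euc unitBallVol unitSphereArea)
open scoped ENNReal NNReal InnerProductSpace unitInterval

noncomputable section

namespace Crest.Agent.R241

universe u

variable {X : Type u} [MetricSpace X] [CompactSpace X] {k : ℕ}

theorem hform_int {α₀ β : ℝ → ℝ} {α : Fin k → ℝ → ℝ} (hα₀ : Lip α₀) (hβ : Lip β)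
    (hα : ∀ a, Lip (α a)) :
    IntegrableOn (fun s => α₀ s * deriv β s * ∏ b, α b s) (Icc 0 1) := by
  obtain ⟨K, hK⟩ := hβ
  have h1 : Continuous fun s => α₀ s * ∏ b, α b s :=
    hα₀.continuous.mul (continuous_finsetProd _ fun b _ => (hα b).continuous)
  refine ((h1.integrableOn_Icc (a := 0) (b := 1)).mul_bdd (c := K)
    (measurable_deriv β).aestronglyMeasurable
    (.of_forall fun s => norm_deriv_le_of_lipschitz hK)).congr (.of_forall fun s => ?_)
  ring

theorem hform_ftc {α : Fin (k + 1) → ℝ → ℝ} (hα : ∀ a, Lip (α a)) :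
    ∑ a, ∫ s in (0 : ℝ)..1, 1 * deriv (α a) s * ∏ b, α (a.succAbove b) s
      = ∏ a, α a 1 - ∏ a, α a 0 := by
  have h1 : ∀ a, AbsolutelyContinuousOnInterval (α a) 0 1 := fun a =>
    (hα a).elim fun K hK => hK.lipschitzOnWith.absolutelyContinuousOnInterval
  have h2 : ∀ S : Finset (Fin (k + 1)),
      AbsolutelyContinuousOnInterval (fun s => ∏ a ∈ S, α a s) 0 1 := fun S => by
    induction S using Finset.induction_on with
    | empty => simpa using (LipschitzWith.const (1 : ℝ)).lipschitzOnWith.absolutelyContinuousOnInterval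
    | insert a S ha ih => simpa only [Finset.prod_insert ha] using (h1 a).fun_mul ih
  rw [← (h2 Finset.univ).integral_deriv_eq_sub, ← intervalIntegral.integral_finsetSum fun a _ =>
    (intervalIntegrable_iff_integrableOn_Icc_of_le zero_le_one).2
      (hform_int (Lip.const 1) (hα a) fun b => hα _)]
  refine intervalIntegral.integral_congr_ae ?_
  have h3 : ∀ᵐ s, ∀ a, DifferentiableAt ℝ (α a) s :=
    ae_all_iff.2 fun a => (hα a).elim fun K hK => hK.ae_differentiableAt_real
  filter_upwards [h3] with s hs _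
  rw [(HasDerivAt.fun_finsetProd fun a _ => (hs a).hasDerivAt).deriv]
  refine Finset.sum_congr rfl fun a _ => ?_
  rw [← Finset.compl_singleton, ← Fin.image_succAbove_univ,
    Finset.prod_image Fin.succAbove_right_injective.injOn, smul_eq_mul]
  ring

namespace Ch

/-- Laplace expansion along the first column + Fubini -/
theorem act_prod_mul (c : Ch X k) {α₀ : ℝ → ℝ} {g₀ : X → ℝ} {α : Fin (k + 1) → ℝ → ℝ}
    {g : Fin (k + 1) → X → ℝ} (hα₀ : Lip α₀) (hg₀ : Lip g₀) (hα : ∀ a, Lip (α a))
    (hg : ∀ a, Lip (g a)) :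
    c.prod.act (fun p => α₀ p.1 * g₀ p.2) (fun a p => α a p.1 * g a p.2)
      = ∑ a : Fin (k + 1), (-1) ^ (a : ℕ)
        * (∫ s in (0 : ℝ)..1, α₀ s * deriv (α a) s * ∏ b, α (a.succAbove b) s)
        * c.act (fun y => g₀ y * g a y) fun b => g (a.succAbove b) := by
  have h1 := fun a : Fin (k + 1) => hform_int hα₀ (hα a) fun b => hα (a.succAbove b)
  have h2 := fun a : Fin (k + 1) => c.integrable_act (f := fun y => g₀ y * g a y)
    (π := fun b => g (a.succAbove b)) (isTestPair_iff.2 ⟨hg₀.mul (hg a), fun b => hg _⟩)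
  simp only [act, mul_assoc ((-1 : ℝ) ^ _)]
  simp only [← fun a => c.integral_prod (h1 a) (h2 a), ← integral_const_mul]
  rw [← integral_finsetSum _ fun a _ => (c.integrable_prod (h1 a) (h2 a)).const_mul _]
  refine integral_congr_ae ?_
  filter_upwards [c.prod_ae_pt, ae_all_iff.2 fun a => c.grad_prod (hα a) (hg a)] with w hw h
  rw [jac_eq, Matrix.det_succ_column_zero, Finset.mul_sum, hw]
  refine Finset.sum_congr rfl fun a _ => ?_
  have e : (Matrix.of fun a j => c.prod.grad (fun p => α a p.1 * g a p.2) w j).submatrix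
      a.succAbove Fin.succ = Matrix.of fun b j => α (a.succAbove b) (w.2 0)
        * Matrix.of (fun b j => c.grad (g (a.succAbove b)) (bs w) j) b j := by
    ext b j
    simpa using congrArg (fun v => v j) (h (a.succAbove b)).2
  rw [e, Matrix.det_mul_column, ← jac_eq (π := fun b => g (a.succAbove b)), Matrix.of_apply,
    (h a).1]
  simp only [prod_pt]
  change c.sg (bs w).1 * _ * _ = _
  ring

/-- the product depends only on the current -/
theorem prod_act_congr {c c' : Ch X k} (h : c.cur = c'.cur) {F₀ : I × X → ℝ}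
    {F : Fin (k + 1) → I × X → ℝ} (hF₀ : Lip F₀) (hF : ∀ a, Lip (F a)) :
    c.prod.act F₀ F = c'.prod.act F₀ F := by
  have key := lip_induction (fun G : Fin (k + 2) → I × X → ℝ => c.prod.actC G - c'.prod.actC G)
    (fun G a g g' hG hg hg' => by
      rw [actC_update_add _ hG a hg hg', actC_update_add _ hG a hg hg']
      ring)
    (fun α g hα hg => by
      simp only [actC, Fin.tail_def]
      rw [c.act_prod_mul (hα 0) (hg 0) (fun a => hα a.succ) fun a => hg a.succ,
        c'.act_prod_mul (hα 0) (hg 0) (fun a => hα a.succ) fun a => hg a.succ, sub_eq_zero]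
      refine Finset.sum_congr rfl fun a _ => ?_
      have h1 : IsTestPair (fun y => g 0 y * g a.succ y) fun b => g (a.succAbove b).succ :=
        isTestPair_iff.2 ⟨(hg 0).mul (hg _), fun b => hg _⟩
      have h2 := congrFun (congrFun h (fun y => g 0 y * g a.succ y)) fun b => g (a.succAbove b).succ
      simp only [cur, if_pos h1] at h2
      rw [h2])
    (fun G G' L hL hG => (tendsto_actC _ hL hG).sub (tendsto_actC _ hL hG))
    (F := Fin.cons F₀ F) (Fin.forall_fin_succ.2 ⟨hF₀, hF⟩)
  simpa only [actC, Fin.cons_zero, Fin.tail_cons, sub_eq_zero] using key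

/-- the homotopy formula -/
theorem IsCyc.prod_bd {c : Ch X k} (hc : c.IsCyc) {F : Fin (k + 1) → I × X → ℝ}
    (hF : ∀ a, Lip (F a)) :
    c.prod.act (fun _ => 1) F = c.actC (fun a y => F a (1, y)) - c.actC fun a y => F a (0, y) := by
  have hu : ∀ (s : I) (G : Fin (k + 1) → I × X → ℝ) (a : Fin (k + 1)) (g : I × X → ℝ),
      (fun b y => Function.update G a g b (s, y))
        = Function.update (fun b y => G b (s, y)) a fun y => g (s, y) := fun s G a g => by
    funext b
    by_cases hb : b = a
    · subst hb; simp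
    · simp [hb]
  have hl : ∀ (s : I) {g : I × X → ℝ}, Lip g → Lip fun y => g (s, y) := fun s g hg =>
    hg.elim fun K hK => ⟨_, hK.comp (LipschitzWith.prodMk_left s)⟩
  refine sub_eq_zero.1 (lip_induction (fun G : Fin (k + 1) → I × X → ℝ => c.prod.act (fun _ => 1) G
    - (c.actC (fun a y => G a (1, y)) - c.actC fun a y => G a (0, y)))
    (fun G a g g' hG hg hg' => ?_) (fun α g hα hg => ?_) (fun G G' L hL hG => ?_) hF)
  · simp only [hu]
    rw [act_update_add _ (isTestPair_iff.2 ⟨Lip.const 1, hG⟩) a hg hg',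
      actC_update_add _ (fun b => hl 1 (hG b)) a (hl 1 hg) (hl 1 hg'),
      actC_update_add _ (fun b => hl 0 (hG b)) a (hl 0 hg) (hl 0 hg')]
    ring
  · have h1 := c.act_prod_mul (Lip.const 1) (Lip.const 1) hα hg
    simp only [mul_one, one_mul (g _ _), hc.act_succAbove hg] at h1
    simp only [Icc.coe_one, Icc.coe_zero]
    rw [h1, c.actC_const_mul hg, c.actC_const_mul hg, ← sub_mul, ← hform_ftc hα, Finset.sum_mul, sub_eq_zero]
    refine Finset.sum_congr rfl fun a _ => ?_
    rw [mul_mul_mul_comm, ← mul_pow]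
    simp
  · refine (c.prod.tendsto_act (fun _ => continuous_const) (C := 1) (fun _ _ => by simp)
      (fun _ => tendsto_const_nhds) hL hG).sub (Tendsto.sub ?_ ?_)
    · exact tendsto_actC _ (fun N a => (hL N a).comp (LipschitzWith.prodMk_left 1)) fun a y => hG a _
    · exact tendsto_actC _ (fun N a => (hL N a).comp (LipschitzWith.prodMk_left 0)) fun a y => hG a _

end Ch

end Crest.Agent.R241
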