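import Crest.Agent.R241.NL

/-!
# Block C: the product chain `[0,1] × c`.  Helper prefix `hprod_`.
-/

open MeasureTheory Set Filter Topology
open Crest.GeometryTopology.MetricCurrent
open Crest.GeometryTopology.Submanifold (Euc unitBallVol unitSphereArea)
open scoped ENNReal NNReal InnerProductSpace unitInterval

noncomputable section

namespace Crest.Agent.R241

universe u

variable {k : ℕ}

/-- forget the first coordinate -/
def tl (k : ℕ) : Euc (k + 1) →L[ℝ] Euc k :=
  LinearMap.toContinuousLinearMap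
    { toFun z := WithLp.toLp 2 fun j => z j.succ
      map_add' _ _ := rfl
      map_smul' _ _ := rfl }

@[simp] theorem tl_apply (z : Euc (k + 1)) (j : Fin k) : tl k z j = z j.succ := rfl

theorem norm_sq_eq_tl (z : Euc (k + 1)) : ‖z‖ ^ 2 = z 0 ^ 2 + ‖tl k z‖ ^ 2 := by
  simp [EuclideanSpace.real_norm_sq_eq, Fin.sum_univ_succ]

theorem norm_tl_le (z : Euc (k + 1)) : ‖tl k z‖ ≤ ‖z‖ :=
  le_of_sq_le_sq_of_nonneg_aux z
where
  le_of_sq_le_sq_of_nonneg_aux (z : Euc (k + 1)) : ‖tl k z‖ ≤ ‖z‖ :=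
    (pow_le_pow_iff_left₀ (norm_nonneg _) (norm_nonneg _) two_ne_zero).1
      (by rw [norm_sq_eq_tl z]; nlinarith [sq_nonneg (z 0)])

theorem abs_zero_le (z : Euc (k + 1)) : |z 0| ≤ ‖z‖ := by
  simpa using PiLp.norm_apply_le z 0

theorem measurePreserving_spl :
    MeasurePreserving (fun z : Euc (k + 1) => (z 0, tl k z)) volume (volume.prod volume) :=
  ((MeasurePreserving.id volume).prod (PiLp.volume_preserving_toLp (Fin k))).comp
    ((volume_preserving_piFinSuccAbove (fun _ : Fin (k + 1) => ℝ) 0).comp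
      (PiLp.volume_preserving_ofLp (Fin (k + 1))))

variable {X : Type u} [MetricSpace X]

/-- the product chain `[0,1] × c` -/
def Ch.prod (c : Ch X k) : Ch (I × X) (k + 1) where
  E i := (fun z => (z 0, tl k z)) ⁻¹' (Icc 0 1 ×ˢ c.E i)
  φ i z := (projIcc 0 1 zero_le_one (z 0), c.φ i (tl k z))
  sg := c.sg
  meas i := measurePreserving_spl.measurable (measurableSet_Icc.prod (c.meas i))
  lip i := by
    refine LipschitzOnWith.of_dist_le_mul fun z hz z' hz' => ?_
    rw [Prod.dist_eq, NNReal.coe_one, one_mul, dist_eq_norm z z']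
    refine max_le ?_ ?_
    · refine ((LipschitzWith.projIcc zero_le_one).dist_le_mul _ _).trans ?_
      rw [NNReal.coe_one, one_mul, Real.dist_eq]
      exact abs_zero_le (z - z')
    · refine ((c.lip i).dist_le_mul _ hz.2 _ hz'.2).trans ?_
      rw [NNReal.coe_one, one_mul, dist_eq_norm, ← map_sub]
      exact norm_tl_le _
  hsg := c.hsg
  fin := by
    have h : ∀ i, volume ((fun z : Euc (k + 1) => (z 0, tl k z)) ⁻¹' (Icc 0 1 ×ˢ c.E i))
        = volume (c.E i) := fun i => by
      rw [measurePreserving_spl.measure_preimage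
        (measurableSet_Icc.prod (c.meas i)).nullMeasurableSet, Measure.prod_prod]
      simp
    simp only [h]
    exact c.fin

/-- the base parameter of a parameter of the product chain -/
def bs (w : ℕ × Euc (k + 1)) : ℕ × Euc k := (w.1, tl k w.2)

namespace Ch

variable (c : Ch X k)

theorem prod_pt (w : ℕ × Euc (k + 1)) :
    c.prod.pt w = (projIcc 0 1 zero_le_one (w.2 0), c.pt (bs w)) := rfl

theorem measurePreserving_prod : MeasurePreserving (fun w : ℕ × Euc (k + 1) => (w.2 0, bs w))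
    c.prod.par ((volume.restrict (Icc 0 1)).prod c.par) := by
  have hm : Measurable fun w : ℕ × Euc (k + 1) => (w.2 0, bs w) := by
    unfold bs
    fun_prop
  refine ⟨hm, ?_⟩
  rw [par, par, Measure.map_sum hm.aemeasurable, Measure.prod_sum_right]
  congr 1
  funext i
  have h1 := (measurePreserving_spl (k := k)).restrict_preimage
    ((measurableSet_Icc (a := (0 : ℝ)) (b := 1)).prod (c.meas i))
  rw [← Measure.prod_restrict] at h1
  have h2 := Measure.map_prod_map (volume.restrict (Icc (0 : ℝ) 1)) (volume.restrict (c.E i))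
    measurable_id (measurable_prodMk_left (x := i))
  rw [Measure.map_id] at h2
  rw [h2, ← h1.map_eq, Measure.map_map hm measurable_prodMk_left,
    Measure.map_map (measurable_id.prodMap measurable_prodMk_left) h1.measurable]
  rfl

theorem prod_ae_bs {Q : ℕ × Euc k → Prop} (h : ∀ᵐ w ∂c.par, Q w) :
    ∀ᵐ w ∂c.prod.par, Q (bs w) :=
  c.measurePreserving_prod.quasiMeasurePreserving.ae
    (Measure.quasiMeasurePreserving_snd.ae h)

theorem prod_ae_fst {Q : ℝ → Prop} (h : ∀ᵐ s ∂volume.restrict (Icc (0 : ℝ) 1), Q s) :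
    ∀ᵐ w ∂c.prod.par, Q (w.2 0) :=
  c.measurePreserving_prod.quasiMeasurePreserving.ae
    (Measure.quasiMeasurePreserving_fst.ae h)

theorem prod_ae_pt : ∀ᵐ w ∂c.prod.par, ((c.prod.pt w).1 : ℝ) = w.2 0 := by
  filter_upwards [c.prod.ae_mem] with w hw
  rw [prod_pt, projIcc_of_mem _ hw.1]

theorem integrable_prod {α : ℝ → ℝ} {ρ : ℕ × Euc k → ℝ} (hα : IntegrableOn α (Icc 0 1))
    (hρ : Integrable ρ c.par) : Integrable (fun w => α (w.2 0) * ρ (bs w)) c.prod.par :=
  c.measurePreserving_prod.integrable_comp_of_integrable (hα.mul_prod hρ)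

theorem integral_prod {α : ℝ → ℝ} {ρ : ℕ × Euc k → ℝ} (hα : IntegrableOn α (Icc 0 1))
    (hρ : Integrable ρ c.par) : ∫ w, α (w.2 0) * ρ (bs w) ∂c.prod.par
      = (∫ s in (0 : ℝ)..1, α s) * ∫ w, ρ w ∂c.par := by
  rw [intervalIntegral.integral_of_le zero_le_one, ← integral_Icc_eq_integral_Ioc,
    ← integral_prod_mul, ← c.measurePreserving_prod.map_eq, integral_map
      c.measurePreserving_prod.measurable.aemeasurable]
  rw [c.measurePreserving_prod.map_eq]
  exact (hα.mul_prod hρ).aestronglyMeasurable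

/-- the gradient of a product function -/
theorem grad_prod {α : ℝ → ℝ} (hα : Lip α) {g : X → ℝ} (hg : Lip g) : ∀ᵐ w ∂c.prod.par,
    c.prod.grad (fun p => α p.1 * g p.2) w 0 = deriv α (w.2 0) * g (c.pt (bs w)) ∧
      tl k (c.prod.grad (fun p => α p.1 * g p.2) w) = α (w.2 0) • c.grad g (bs w) := by
  obtain ⟨K, hK⟩ := hα
  filter_upwards [c.prod.ae_mem, c.prod.ae_uniqueDiff, c.prod_ae_bs (c.ae_hasGradient hg),
    c.prod_ae_fst (ae_restrict_of_ae hK.ae_differentiableAt_real)] with w hw hu h1 h2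
  have h3 : HasFDerivWithinAt (fun z : Euc (k + 1) => α (z 0)) _ (c.prod.E w.1) w.2 :=
    (h2.hasDerivAt.comp_hasFDerivAt w.2
      (PiLp.proj (𝕜 := ℝ) 2 (fun _ : Fin (k + 1) => ℝ) 0).hasFDerivAt).hasFDerivWithinAt
  have h4 := h1.hasFDerivWithinAt.comp w.2 (tl k).hasFDerivWithinAt (s := c.prod.E w.1)
    fun z hz => hz.2
  have h5 := ((h3.mul h4).congr (f₁ := fun z => α (c.prod.φ w.1 z).1 * g (c.prod.φ w.1 z).2)
    (fun z hz => by simp only [prod, projIcc_of_mem _ hz.1, Pi.mul_apply]; rfl)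
    (by simp only [prod, projIcc_of_mem _ hw.1, Pi.mul_apply]; rfl)).fderivWithin hu
  have h6 : ∀ j, c.prod.grad (fun p => α p.1 * g p.2) w j
      = α (w.2 0) * ⟪c.grad g (bs w), tl k (EuclideanSpace.single j 1)⟫_ℝ
        + g (c.pt (bs w)) * (deriv α (w.2 0) * (EuclideanSpace.single j (1 : ℝ)) 0) := fun j => by
    have := c.prod.inner_grad (fun p => α p.1 * g p.2) w (EuclideanSpace.single j 1)
    rw [h5, EuclideanSpace.inner_single_right] at this
    simpa [pt, bs] using this
  refine ⟨?_, ?_⟩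
  · have : tl k (EuclideanSpace.single 0 1) = 0 := by ext j; simp
    rw [h6, this]
    simp [mul_comm]
  · ext j
    have : tl k (EuclideanSpace.single j.succ 1) = EuclideanSpace.single j 1 := by
      ext l; simp
    rw [tl_apply, h6, this, EuclideanSpace.inner_single_right]
    simp

end Ch

end Crest.Agent.R241
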